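import Mathlib

/-! # P209, second statement: symplectic embeddings of balls -/

open scoped ContDiff

namespace Vale.Agent.P209S

/-- The disjoint union of the closed balls of capacities `r i` embeds symplectically into the open
ball of capacity `R` in `ℂ^n`: there are diffeomorphisms `Φ i` from open neighbourhoods of the closed
balls of radii `√(r i / π)` onto open sets, preserving the imaginary part of the hermitian inner
product (the standard symplectic form), such that the images of the closed balls lie in the open
ball of radius `√(R / π)` and are pairwise disjoint. -/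
def Packs (n k : ℕ) (r : Fin k → ℝ) (R : ℝ) : Prop :=
  ∃ Φ : Fin k → OpenPartialHomeomorph (EuclideanSpace ℂ (Fin n)) (EuclideanSpace ℂ (Fin n)),
    (∀ i, Metric.closedBall 0 √(r i / Real.pi) ⊆ (Φ i).source ∧
      ContDiffOn ℝ ∞ (Φ i) (Φ i).source ∧ ContDiffOn ℝ ∞ (Φ i).symm (Φ i).target ∧
      (∀ z ∈ (Φ i).source, ∀ u v,
        (inner ℂ (fderiv ℝ (Φ i) z u) (fderiv ℝ (Φ i) z v)).im = (inner ℂ u v).im) ∧
      Φ i '' Metric.closedBall 0 √(r i / Real.pi) ⊆ Metric.ball 0 √(R / Real.pi)) ∧
    Pairwise fun i j => Disjoint (Φ i '' Metric.closedBall 0 √(r i / Real.pi))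
      (Φ j '' Metric.closedBall 0 √(r j / Real.pi))

end Vale.Agent.P209S
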