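import Vale.Agent.Lib.P209.Packings
import Vale.Agent.Lib.P209S.Stmt

/-! # P209, second statement: symplectic embeddings as partial diffeomorphisms -/

open Set Topology
open scoped ContDiff

namespace Vale.Agent.P209S

open Vale.Agent.P209

variable {n : ℕ}

theorem omega0_eq (u v : EuclideanSpace ℂ (Fin n)) :
    (inner ℂ u v).im = omega0 u.ofLp v.ofLp := by
  unfold omega0
  rw [PiLp.inner_apply, Complex.im_sum]
  refine Finset.sum_congr rfl fun j _ => ?_
  rw [RCLike.inner_apply']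
  simp only [Complex.mul_im, Complex.conj_re, Complex.conj_im]
  ring

theorem inner_nondeg {u : EuclideanSpace ℂ (Fin n)} (h : ∀ v, (inner ℂ u v).im = 0) : u = 0 := by
  have h1 := h (Complex.I • u)
  rw [inner_smul_right, inner_self_eq_norm_sq_to_K] at h1
  have h2 : ‖u‖ ^ 2 = 0 := by
    simpa [← Complex.ofReal_pow] using h1
  exact norm_eq_zero.1 (pow_eq_zero_iff (two_ne_zero)|>.1 h2)

/-- a smooth injective map with symplectic derivative is a partial diffeomorphism. -/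
theorem exists_diffeo {U : Set (EuclideanSpace ℂ (Fin n))} (hU : IsOpen U)
    {φ : EuclideanSpace ℂ (Fin n) → EuclideanSpace ℂ (Fin n)} (hφ : ContDiffOn ℝ ∞ φ U)
    (hinj : InjOn φ U)
    (hs : ∀ z ∈ U, ∀ u v, (inner ℂ (fderiv ℝ φ z u) (fderiv ℝ φ z v)).im = (inner ℂ u v).im) :
    ∃ Φ : OpenPartialHomeomorph (EuclideanSpace ℂ (Fin n)) (EuclideanSpace ℂ (Fin n)),
      Φ.source = U ∧ (Φ : EuclideanSpace ℂ (Fin n) → EuclideanSpace ℂ (Fin n)) = φ ∧
      ContDiffOn ℝ ∞ Φ.symm Φ.target := by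
  have hat : ∀ z ∈ U, ContDiffAt ℝ ∞ φ z := fun z hz => hφ.contDiffAt (hU.mem_nhds hz)
  have hequiv : ∀ z ∈ U, ∃ A : EuclideanSpace ℂ (Fin n) ≃L[ℝ] EuclideanSpace ℂ (Fin n),
      (A : EuclideanSpace ℂ (Fin n) →L[ℝ] EuclideanSpace ℂ (Fin n)) = fderiv ℝ φ z := by
    intro z hz
    have hi : Function.Injective (fderiv ℝ φ z).toLinearMap := by
      rw [← LinearMap.ker_eq_bot, LinearMap.ker_eq_bot']
      intro u hu
      refine inner_nondeg fun v => ?_
      rw [← hs z hz u v]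
      have hu' : fderiv ℝ φ z u = 0 := hu
      rw [hu', inner_zero_left]
      simp
    refine ⟨(LinearEquiv.ofInjectiveEndo _ hi).toContinuousLinearEquiv, ?_⟩
    ext u
    rfl
  have hopen : IsOpenMap (U.domRestrict φ) := by
    rw [isOpenMap_iff_nhds_le]
    rintro ⟨z, hz⟩
    obtain ⟨A, hA⟩ := hequiv z hz
    have h1 : HasStrictFDerivAt φ (A : EuclideanSpace ℂ (Fin n) →L[ℝ] _) z := by
      rw [hA]
      exact (hat z hz).hasStrictFDerivAt (by simp)
    have h2 := h1.map_nhds_eq_of_equiv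
    have h3 : Filter.map (U.domRestrict φ) (𝓝 ⟨z, hz⟩) = Filter.map φ (𝓝 z) := by
      rw [← map_nhds_subtype_coe_eq_nhds hz (hU.mem_nhds hz), Filter.map_map]
      rfl
    rw [h3, h2]
    rfl
  refine ⟨OpenPartialHomeomorph.ofContinuousOpenRestrict (hinj.toPartialEquiv φ U)
    hφ.continuousOn hopen hU, rfl, rfl, ?_⟩
  set Φ := OpenPartialHomeomorph.ofContinuousOpenRestrict (hinj.toPartialEquiv φ U)
    hφ.continuousOn hopen hU with hΦ
  intro a ha
  have h4 : Φ.symm a ∈ U := Φ.map_target ha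
  obtain ⟨A, hA⟩ := hequiv _ h4
  refine (Φ.contDiffAt_symm (f₀' := A) ha ?_ (hat _ h4)).contDiffWithinAt
  rw [hA]
  exact ((hat _ h4).differentiableAt (by simp)).hasFDerivAt

end Vale.Agent.P209S
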