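import Vale.Agent.Lib.P209S.Bridge

/-! # P209, second statement: comparison with the first one -/

open Set Topology
open scoped ContDiff

namespace Vale.Agent.P209S

open Vale.Agent.P209

variable {n : ℕ}

/-- the identity from `ℂ^n` with the Euclidean norm to the product. -/
noncomputable def ee (n : ℕ) : EuclideanSpace ℂ (Fin n) ≃L[ℝ] (Fin n → ℂ) :=
  PiLp.continuousLinearEquiv 2 ℝ (fun _ : Fin n => ℂ)

theorem ee_apply (u : EuclideanSpace ℂ (Fin n)) : ee n u = u.ofLp := rfl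

theorem mem_closedBall_iff {r : ℝ} (hr : 0 < r) (z : EuclideanSpace ℂ (Fin n)) :
    z ∈ Metric.closedBall (0 : EuclideanSpace ℂ (Fin n)) √(r / Real.pi) ↔
      ee n z ∈ closedBallCap n r := by
  have hpi := Real.pi_pos
  rw [mem_closedBall_zero_iff, Real.le_sqrt (norm_nonneg z) (div_pos hr hpi).le,
    le_div_iff₀ hpi, EuclideanSpace.norm_sq_eq, mul_comm]
  rfl

theorem mem_ball_iff {r : ℝ} (z : EuclideanSpace ℂ (Fin n)) :
    z ∈ Metric.ball (0 : EuclideanSpace ℂ (Fin n)) √(r / Real.pi) ↔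
      ee n z ∈ openBallCap n r := by
  have hpi := Real.pi_pos
  rw [mem_ball_zero_iff, Real.lt_sqrt (norm_nonneg z),
    lt_div_iff₀ hpi, EuclideanSpace.norm_sq_eq, mul_comm]
  rfl

theorem omega0_ee (u v : EuclideanSpace ℂ (Fin n)) :
    (inner ℂ u v).im = omega0 (ee n u) (ee n v) := omega0_eq u v

theorem packs_of_ballsEmbed {k : ℕ} {r : Fin k → ℝ} {R : ℝ} (hr : ∀ i, 0 < r i)
    (h : BallsEmbed n k r R) : Packs n k r R := by
  obtain ⟨φ, h1, h2, h3⟩ := h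
  have key : ∀ i, ∃ Φ : OpenPartialHomeomorph (EuclideanSpace ℂ (Fin n))
      (EuclideanSpace ℂ (Fin n)),
      Metric.closedBall 0 √(r i / Real.pi) ⊆ Φ.source ∧
      (∀ z, Φ z = (ee n).symm (φ i (ee n z))) ∧
      ContDiffOn ℝ ∞ Φ Φ.source ∧ ContDiffOn ℝ ∞ Φ.symm Φ.target ∧
      (∀ z ∈ Φ.source, ∀ u v,
        (inner ℂ (fderiv ℝ Φ z u) (fderiv ℝ Φ z v)).im = (inner ℂ u v).im) := by
    intro i
    obtain ⟨U, hU, hKU, hc, he, hs⟩ := h1 i
    have hU' : IsOpen (ee n ⁻¹' U) := hU.preimage (ee n).continuous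
    have hc' : ContDiffOn ℝ ∞ (fun z => (ee n).symm (φ i (ee n z))) (ee n ⁻¹' U) :=
      (ee n).symm.contDiff.comp_contDiffOn
        (hc.comp (ee n).contDiff.contDiffOn fun z hz => hz)
    have hinj : InjOn (fun z => (ee n).symm (φ i (ee n z))) (ee n ⁻¹' U) := by
      intro z hz w hw hzw
      have h4 : φ i (ee n z) = φ i (ee n w) := (ee n).symm.injective hzw
      have h5 : (⟨ee n z, hz⟩ : U) = ⟨ee n w, hw⟩ := he.injective h4
      exact (ee n).injective (congrArg Subtype.val h5)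
    have hs' : ∀ z ∈ ee n ⁻¹' U, ∀ u v,
        (inner ℂ (fderiv ℝ (fun z => (ee n).symm (φ i (ee n z))) z u)
          (fderiv ℝ (fun z => (ee n).symm (φ i (ee n z))) z v)).im = (inner ℂ u v).im := by
      intro z hz u v
      have hz' : ee n z ∈ U := hz
      have hd : HasFDerivAt (φ i) (fderiv ℝ (φ i) (ee n z)) (ee n z) :=
        ((hc.contDiffAt (hU.mem_nhds hz')).differentiableAt (by simp)).hasFDerivAt
      have hd2 : HasFDerivAt (fun z => (ee n).symm (φ i (ee n z)))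
          (((ee n).symm : (Fin n → ℂ) →L[ℝ] EuclideanSpace ℂ (Fin n)).comp
            ((fderiv ℝ (φ i) (ee n z)).comp
              ((ee n : EuclideanSpace ℂ (Fin n) →L[ℝ] (Fin n → ℂ))))) z :=
        (ee n).symm.hasFDerivAt.comp z (hd.comp z (ee n).hasFDerivAt)
      rw [hd2.fderiv, omega0_ee, omega0_ee]
      simp only [ContinuousLinearMap.comp_apply, ContinuousLinearEquiv.coe_coe,
        ContinuousLinearEquiv.apply_symm_apply]
      exact hs _ hz' _ _
    obtain ⟨Φ, hΦ1, hΦ2, hΦ3⟩ := exists_diffeo hU' hc' hinj hs'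
    refine ⟨Φ, ?_, fun z => by rw [hΦ2], ?_, hΦ3, ?_⟩
    · rw [hΦ1]
      intro z hz
      exact hKU ((mem_closedBall_iff (hr i) z).1 hz)
    · rw [hΦ1, hΦ2]
      exact hc'
    · rw [hΦ1, hΦ2]
      exact hs'
  choose Φ hΦ using key
  refine ⟨Φ, fun i => ⟨(hΦ i).1, (hΦ i).2.2.1, (hΦ i).2.2.2.1, (hΦ i).2.2.2.2, ?_⟩, ?_⟩
  · rintro _ ⟨z, hz, rfl⟩
    rw [(hΦ i).2.1, mem_ball_iff, ContinuousLinearEquiv.apply_symm_apply]
    exact h2 i ⟨_, (mem_closedBall_iff (hr i) z).1 hz, rfl⟩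
  · intro i j hij
    rw [Set.disjoint_left]
    rintro _ ⟨z, hz, rfl⟩ ⟨w, hw, hzw⟩
    rw [(hΦ i).2.1, (hΦ j).2.1] at hzw
    have h4 : φ j (ee n w) = φ i (ee n z) := (ee n).symm.injective hzw
    refine Set.disjoint_left.1 (h3 i j hij) ⟨_, (mem_closedBall_iff (hr i) z).1 hz, rfl⟩ ?_
    rw [← h4]
    exact ⟨_, (mem_closedBall_iff (hr j) w).1 hw, rfl⟩

end Vale.Agent.P209S
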